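import Vale.Agent.P367.Gap.Values

open MeasureTheory Matrix

namespace Vale.Agent.P367.H648

open Vale.Agent.P367.Gap

/-- A quantum algorithm on `n` qubits and an ancilla space of dimension `anc` (basis vectors
`|s, a⟩`), which uses the instance only through controlled time evolution under its Hamiltonian.
Step `k` multiplies `|s, a⟩` by `exp (-i time_k ctrl_k(s, a) h(s))`, where `|ctrl_k| ≤ 1`, and then
applies the unitary `gate_k`, which does not depend on the instance. At the end the basis
`|s, a⟩` is measured and the string `output (s, a)` is the answer. -/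
structure Algorithm (n : ℕ) where
  /-- dimension of the ancilla space -/
  anc : ℕ
  /-- number of steps -/
  depth : ℕ
  /-- evolution times -/
  time : Fin depth → ℝ
  /-- controls -/
  ctrl : Fin depth → Conf n × Fin anc → ℝ
  ctrl_le : ∀ k x, |ctrl k x| ≤ 1
  /-- gates -/
  gate : Fin depth → Matrix (Conf n × Fin anc) (Conf n × Fin anc) ℂ
  gate_unitary : ∀ k, gate k ∈ Matrix.unitaryGroup (Conf n × Fin anc) ℂ
  /-- initial vector -/
  start : Conf n × Fin anc → ℂ
  start_unit : ∑ x, ‖start x‖ ^ 2 = 1
  /-- the answer for each result of the measurement -/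
  output : Conf n × Fin anc → Conf n

variable {n : ℕ}

/-- The state after `k` steps on the instance `J`. -/
noncomputable def Algorithm.state (a : Algorithm n) (J : Pair n → ℝ) :
    (k : ℕ) → k ≤ a.depth → Conf n × Fin a.anc → ℂ
  | 0, _ => a.start
  | k + 1, h => a.gate ⟨k, h⟩ *ᵥ fun x =>
      Complex.exp (-(Complex.I * ((a.time ⟨k, h⟩ * a.ctrl ⟨k, h⟩ x * skEnergy J x.1 : ℝ) : ℂ))) *
        a.state J k (Nat.le_of_succ_le h) x

/-- The total evolution time. -/
noncomputable def Algorithm.totalTime (a : Algorithm n) : ℝ := ∑ k, |a.time k|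

/-- `(1/n)` times the expected energy of the answer, over the couplings and the measurement. -/
noncomputable def Algorithm.value (a : Algorithm n) : ℝ :=
  (n : ℝ)⁻¹ * ∫ J, ∑ x, ‖a.state J a.depth le_rfl x‖ ^ 2 * skEnergy J (a.output x)
    ∂(couplingLaw n)

end Vale.Agent.P367.H648
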