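import Vale.Agent.P367.H648.Low
import Vale.Agent.P367.H648.Defs

/-!
# P367 : algorithms with Hamiltonian access (helper648)
-/

open MeasureTheory ProbabilityTheory Finset Matrix Filter Topology

namespace Vale.Agent.P367.H648

open Vale.Agent.P367.Gap

variable {S : Type} [Fintype S] [DecidableEq S] {n : ℕ}

omit [DecidableEq S] in
lemma sum_norm_sq_eqS (v : S → ℂ) : ((∑ s, ‖v s‖ ^ 2 : ℝ) : ℂ) = star v ⬝ᵥ v := by
  rw [dotProduct]
  push_cast
  apply Finset.sum_congr rfl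
  intro s _
  simp only [Pi.star_apply, RCLike.star_def]
  rw [mul_comm, Complex.mul_conj, Complex.normSq_eq_norm_sq]
  push_cast
  rfl

lemma sum_norm_sq_mulVecS (U : Matrix S S ℂ) (hU : Uᴴ * U = 1) (v : S → ℂ) :
    ∑ s, ‖(U *ᵥ v) s‖ ^ 2 = ∑ s, ‖v s‖ ^ 2 := by
  have h : ((∑ s, ‖(U *ᵥ v) s‖ ^ 2 : ℝ) : ℂ) = ((∑ s, ‖v s‖ ^ 2 : ℝ) : ℂ) := by
    rw [sum_norm_sq_eqS, sum_norm_sq_eqS, Matrix.star_mulVec, Matrix.dotProduct_mulVec,
      Matrix.vecMul_vecMul, hU, Matrix.vecMul_one]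
  exact_mod_cast h

/-- Matrix action on the Hilbert space. -/
noncomputable def mL (U : Matrix S S ℂ) : HS S →ₗ[ℂ] HS S where
  toFun v := WithLp.toLp 2 (U *ᵥ (WithLp.ofLp v))
  map_add' u v := by
    simp [Matrix.mulVec_add]
  map_smul' c v := by
    simp [Matrix.mulVec_smul]

lemma norm_mL (U : Matrix S S ℂ) (hU : Uᴴ * U = 1) (v : HS S) : ‖mL U v‖ = ‖v‖ := by
  rw [EuclideanSpace.norm_eq, EuclideanSpace.norm_eq]
  congr 1
  exact sum_norm_sq_mulVecS U hU (WithLp.ofLp v)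

/-- times as a sequence -/
noncomputable def tS (a : Algorithm n) (k : ℕ) : ℝ := if h : k < a.depth then a.time ⟨k, h⟩ else 0

/-- controls as a sequence -/
noncomputable def cS (a : Algorithm n) (k : ℕ) (x : Conf n × Fin a.anc) : ℝ :=
  if h : k < a.depth then a.ctrl ⟨k, h⟩ x else 0

/-- gates as a sequence -/
noncomputable def dS (a : Algorithm n) (k : ℕ) :
    HS (Conf n × Fin a.anc) →ₗ[ℂ] HS (Conf n × Fin a.anc) :=
  if h : k < a.depth then mL (a.gate ⟨k, h⟩) else LinearMap.id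

lemma unit_gate (a : Algorithm n) (k : Fin a.depth) : (a.gate k)ᴴ * a.gate k = 1 := by
  have := Matrix.mem_unitaryGroup_iff'.1 (a.gate_unitary k)
  rwa [Matrix.star_eq_conjTranspose] at this

lemma norm_dS (a : Algorithm n) (k : ℕ) (v : HS (Conf n × Fin a.anc)) : ‖dS a k v‖ = ‖v‖ := by
  unfold dS
  split_ifs with h
  · exact norm_mL _ (unit_gate a _) v
  · rfl

lemma cS_le (a : Algorithm n) (k : ℕ) (x : Conf n × Fin a.anc) : |cS a k x| ≤ 1 := by
  unfold cS
  split_ifs with h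
  · exact a.ctrl_le _ _
  · simp

lemma crc_eq (a : Algorithm n) (J : Pair n → ℝ) (k : ℕ) (h : k ≤ a.depth) :
    crc (dS a) (tS a) (cS a) (cR Prod.fst J) (WithLp.toLp 2 a.start) k
      = WithLp.toLp 2 (a.state J k h) := by
  induction k with
  | zero => rfl
  | succ k ih =>
    rw [crc, ih (Nat.le_of_succ_le h)]
    have h1 : dS a k = mL (a.gate ⟨k, h⟩) := dif_pos h
    rw [h1]
    show WithLp.toLp 2 (a.gate ⟨k, h⟩ *ᵥ _) = WithLp.toLp 2 (a.state J (k + 1) h)
    rw [Algorithm.state]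
    congr 2
    funext x
    have h2 : tS a k = a.time ⟨k, h⟩ := dif_pos h
    have h3 : cS a k x = a.ctrl ⟨k, h⟩ x := dif_pos h
    show Complex.exp (-(Complex.I * ((tS a k * cS a k x : ℝ) : ℂ) * cR Prod.fst J x)) *
      a.state J k _ x = _
    rw [h2, h3]
    congr 2
    unfold cR
    push_cast
    ring

lemma sum_tS (a : Algorithm n) : ∑ l ∈ range a.depth, |tS a l| = a.totalTime := by
  rw [← Fin.sum_univ_eq_sum_range (fun l => |tS a l|) a.depth]
  unfold Algorithm.totalTime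
  refine Finset.sum_congr rfl fun k _ => ?_
  unfold tS
  rw [dif_pos k.2]

/-- **The gap for all algorithms with Hamiltonian access.** -/
theorem Algorithm.gap (hn : 2 ≤ n) (a : Algorithm n) :
    a.value ≤ groundValue n - Real.exp (-(10 ^ 8 * (1 + a.totalTime) ^ 2)) := by
  have hT : 0 ≤ a.totalTime := Finset.sum_nonneg fun k _ => abs_nonneg _
  have hv : ‖(WithLp.toLp 2 a.start : HS (Conf n × Fin a.anc))‖ = 1 := by
    rw [EuclideanSpace.norm_eq]
    have : ∑ x, ‖(WithLp.toLp 2 a.start : HS (Conf n × Fin a.anc)) x‖ ^ 2 = 1 := a.start_unit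
    rw [this, Real.sqrt_one]
  have h := gap_S (n := n) (reg := Prod.fst) (out := a.output) (D := dS a) (norm_dS a) (tS a)
    (cS a) (cS_le a) (WithLp.toLp 2 a.start) hv a.depth a.totalTime hT (sum_tS a).le hn
  simp only [crc_eq a _ a.depth le_rfl] at h
  exact h

/-! ### QAOA is an algorithm of this kind -/

/-- The equivalence for a one-dimensional ancilla space. -/
def eU (n : ℕ) : Conf n × Fin 1 ≃ Conf n := Equiv.prodUnique (Conf n) (Fin 1)

/-- QAOA as an algorithm. -/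
noncomputable def qAlg (n p : ℕ) (γ β : Fin p → ℝ) : Algorithm n where
  anc := 1
  depth := p
  time := γ
  ctrl := fun _ _ => 1
  ctrl_le := fun _ _ => by simp
  gate := fun k => (mixU n (β k)).submatrix (eU n) (eU n)
  gate_unitary := fun k => by
    rw [Matrix.mem_unitaryGroup_iff', Matrix.star_eq_conjTranspose, Matrix.conjTranspose_submatrix,
      Matrix.submatrix_mul_equiv, mixU_unitary, Matrix.submatrix_one_equiv]
  start := fun x => plusState n x.1
  start_unit := by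
    have h := norm_plusH n
    rw [EuclideanSpace.norm_eq] at h
    have h3 := congrArg (fun x : ℝ => x ^ 2) h
    simp only at h3
    rw [Real.sq_sqrt (Finset.sum_nonneg fun s _ => by positivity)] at h3
    rw [Fintype.sum_prod_type]
    simp only [Finset.univ_unique, Finset.sum_const, Finset.card_singleton, one_smul]
    have e : ∀ s, ‖plusState n s‖ = ‖plusH n s‖ := fun s => rfl
    simp only [e]
    rw [h3]; norm_num
  output := Prod.fst

lemma qAlg_state (J : Pair n → ℝ) {p : ℕ} (γ β : Fin p → ℝ) (k : ℕ) (h : k ≤ p) :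
    (qAlg n p γ β).state J k h
      = fun x => qaoaState J k (fun i => γ (Fin.castLE h i)) (fun i => β (Fin.castLE h i)) x.1 := by
  induction k with
  | zero => rfl
  | succ k ih =>
    have h0 : (qAlg n p γ β).state J (k + 1) h =
        (mixU n (β ⟨k, h⟩)).submatrix (eU n) (eU n) *ᵥ fun x : Conf n × Fin 1 =>
          Complex.exp (-(Complex.I * ((γ ⟨k, h⟩ * 1 * skEnergy J x.1 : ℝ) : ℂ))) *
            (qAlg n p γ β).state J k (Nat.le_of_succ_le h) x := rfl
    rw [h0, ih (Nat.le_of_succ_le h), qaoaState, exp_cost]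
    rw [Matrix.submatrix_mulVec_equiv]
    funext x
    show (mixU n (β ⟨k, h⟩) *ᵥ _) x.1 = (mixU n (β (Fin.castLE h (Fin.last k))) *ᵥ _) x.1
    congr 2
    funext s
    show Complex.exp (-(Complex.I * ((γ ⟨k, h⟩ * 1 * skEnergy J s : ℝ) : ℂ))) * _ = _
    have e1 : Fin.castLE h (Fin.last k) = ⟨k, h⟩ := rfl
    rw [e1]
    have e2 : ∀ g E : ℝ, -(Complex.I * ((g * 1 * E : ℝ) : ℂ)) = -(Complex.I * (g : ℂ) * (E : ℂ)) := by
      intro g E
      push_cast
      ring
    rw [e2]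
    rfl

lemma qAlg_value (p : ℕ) (γ β : Fin p → ℝ) : (qAlg n p γ β).value = qaoaValue n p γ β := by
  unfold Algorithm.value qaoaValue
  congr 1
  refine integral_congr_ae (Filter.Eventually.of_forall fun J => ?_)
  simp only
  rw [qaoaMean_eq]
  have h1 : (qAlg n p γ β).state J (qAlg n p γ β).depth le_rfl = fun x => qaoaState J p γ β x.1 :=
    qAlg_state J γ β p le_rfl
  rw [h1]
  show ∑ x : Conf n × Fin 1, ‖qaoaState J p γ β x.1‖ ^ 2 * skEnergy J x.1 = _
  rw [Fintype.sum_prod_type]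
  simp only [Finset.univ_unique, Finset.sum_const, Finset.card_singleton, one_smul]

/-- QAOA is a special case. -/
theorem qaoa_is (n p : ℕ) (γ β : Fin p → ℝ) : ∃ a : Algorithm n, a.depth = p ∧
    a.totalTime = ∑ k, |γ k| ∧ a.value = qaoaValue n p γ β :=
  ⟨qAlg n p γ β, rfl, rfl, qAlg_value p γ β⟩

/-! ### reaching `P_*` -/

lemma qaoa_le (hn : 2 ≤ n) (p : ℕ) (γ β : Fin p → ℝ) : qaoaValue n p γ β ≤ groundValue n := by
  rw [← qAlg_value]
  refine ((qAlg n p γ β).gap hn).trans ?_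
  have := Real.exp_pos (-(10 ^ 8 * (1 + (qAlg n p γ β).totalTime) ^ 2))
  linarith

/-- Protocols with total phase at most `T`. -/
def Prot (T : ℝ) : Type := {a : (p : ℕ) × ((Fin p → ℝ) × (Fin p → ℝ)) // ∑ k, |a.2.1 k| ≤ max T 0}

instance (T : ℝ) : Nonempty (Prot T) :=
  ⟨⟨⟨0, (fun _ => 0, fun _ => 0)⟩, by simp⟩⟩

/-- **Any diverging total time suffices for QAOA.** -/
theorem qaoa_reach (hg : Tendsto groundValue atTop (𝓝 Pstar))
    (h6 : ∀ ε : ℝ, 0 < ε → ∃ (p : ℕ) (γ β : Fin p → ℝ),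
      ∀ᶠ n in atTop, groundValue n - ε ≤ qaoaValue n p γ β)
    (T : ℕ → ℝ) (hT : Tendsto T atTop atTop) :
    ∃ (p : ℕ → ℕ) (γ β : (n : ℕ) → Fin (p n) → ℝ),
      (∀ᶠ n in atTop, ∑ k, |γ n k| ≤ T n) ∧
      Tendsto (fun n => qaoaValue n (p n) (γ n) (β n)) atTop (𝓝 Pstar) := by
  set V : (n : ℕ) → Prot (T n) → ℝ := fun n a => qaoaValue n a.1.1 a.1.2.1 a.1.2.2 with hV
  have hb : ∀ n, 2 ≤ n → BddAbove (Set.range (V n)) := by
    intro n hn
    refine ⟨groundValue n, ?_⟩
    rintro _ ⟨a, rfl⟩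
    exact qaoa_le hn _ _ _
  have h1 : ∀ n, ∃ a : Prot (T n), (⨆ b, V n b) - ((n : ℝ) + 1)⁻¹ < V n a := by
    intro n
    have : (⨆ b, V n b) - ((n : ℝ) + 1)⁻¹ < ⨆ b, V n b := by
      have : (0 : ℝ) < ((n : ℝ) + 1)⁻¹ := by positivity
      linarith
    exact exists_lt_of_lt_ciSup this
  choose a ha using h1
  refine ⟨fun n => (a n).1.1, fun n => (a n).1.2.1, fun n => (a n).1.2.2, ?_, ?_⟩
  · filter_upwards [hT.eventually_ge_atTop 0] with n hn
    exact (a n).2.trans (max_eq_left hn).le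
  have t1 : Tendsto (fun n : ℕ => ((n : ℝ) + 1)⁻¹) atTop (𝓝 0) := by
    refine tendsto_inv_atTop_zero.comp ?_
    exact tendsto_atTop_add_const_right _ _ tendsto_natCast_atTop_atTop
  have key : Tendsto (fun n => groundValue n - V n (a n)) atTop (𝓝 0) := by
    rw [Metric.tendsto_atTop']
    intro ε hε
    obtain ⟨q, γ, β, h⟩ := h6 (ε / 2) (half_pos hε)
    have := (h.and (t1.eventually_lt_const (half_pos hε))).and
      ((hT.eventually_ge_atTop (∑ k, |γ k|)).and (eventually_ge_atTop 2))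
    obtain ⟨N, hN⟩ := eventually_atTop.1 this
    refine ⟨N, fun n hn => ?_⟩
    obtain ⟨⟨h2, h3⟩, h4, h5⟩ := hN n hn.le
    have hle : qaoaValue n q γ β ≤ ⨆ b, V n b :=
      le_ciSup (hb n h5) ⟨⟨q, (γ, β)⟩, h4.trans (le_max_left _ _)⟩
    have hup : V n (a n) ≤ groundValue n := qaoa_le h5 _ _ _
    have hlo := ha n
    rw [Real.dist_eq, sub_zero, abs_of_nonneg (by linarith)]
    linarith
  have := hg.sub key
  simpa [hV] using this

/-- **A diverging total time is necessary for every algorithm.** -/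
theorem time_diverges (hg : Tendsto groundValue atTop (𝓝 Pstar)) (T : ℕ → ℝ)
    (a : (n : ℕ) → Algorithm n) (hT : ∀ᶠ n in atTop, (a n).totalTime ≤ T n)
    (h : Tendsto (fun n => (a n).value) atTop (𝓝 Pstar)) : Tendsto T atTop atTop := by
  rw [tendsto_atTop]
  intro B
  by_contra hcon
  have hf : ∃ᶠ n in atTop, T n < B := by
    intro h1
    apply hcon
    filter_upwards [h1] with n hn
    push Not at hn
    exact hn
  have h2 : Tendsto (fun n => groundValue n - (a n).value) atTop (𝓝 0) := by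
    have := hg.sub h
    rwa [sub_self] at this
  have hpos : 0 < Real.exp (-(10 ^ 8 * (1 + |B|) ^ 2)) := Real.exp_pos _
  have h3 := ((h2.eventually_lt_const hpos).and (eventually_ge_atTop 2)).and hT
  obtain ⟨n, hn, ⟨hn1, hn2⟩, hn3⟩ := (hf.and_eventually h3).exists
  have h4 := (a n).gap hn2
  have hT0 : 0 ≤ (a n).totalTime := Finset.sum_nonneg fun k _ => abs_nonneg _
  have h5 : (a n).totalTime ≤ |B| := (hn3.trans hn.le).trans (le_abs_self B)
  have h6 : Real.exp (-(10 ^ 8 * (1 + |B|) ^ 2)) ≤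
      Real.exp (-(10 ^ 8 * (1 + (a n).totalTime) ^ 2)) := by
    apply Real.exp_le_exp.mpr
    have : (1 + (a n).totalTime) ^ 2 ≤ (1 + |B|) ^ 2 :=
      pow_le_pow_left₀ (by linarith) (by linarith) 2
    linarith
  linarith

end Vale.Agent.P367.H648
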