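import Vale.Agent.P367.Bd3.B5

/-!
# P367 : circuits with ancillas, arbitrary gates and controlled time evolution (helper648)
-/

open Finset

namespace Vale.Agent.P367.H648

open Vale.Agent.P367.Gap

variable {S : Type} [Fintype S] {n : ℕ}

/-- The Hilbert space with basis `S`. -/
abbrev HS (S : Type) [Fintype S] : Type := EuclideanSpace ℂ S

/-- diagonal multiplication -/
noncomputable def dgL (d : S → ℂ) : HS S →ₗ[ℂ] HS S where
  toFun v := WithLp.toLp 2 fun σ => d σ * v σ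
  map_add' u v := by ext σ; simp [mul_add]
  map_smul' c v := by ext σ; simp [mul_left_comm]

@[simp] lemma dgL_apply (d : S → ℂ) (v : HS S) (σ : S) : dgL d v σ = d σ * v σ := rfl

lemma norm_dgL_le {d : S → ℂ} {M : ℝ} (hM : 0 ≤ M) (hd : ∀ σ, ‖d σ‖ ≤ M) (v : HS S) :
    ‖dgL d v‖ ≤ M * ‖v‖ := by
  rw [EuclideanSpace.norm_eq, EuclideanSpace.norm_eq, ← Real.sqrt_sq hM,
    ← Real.sqrt_mul (sq_nonneg M)]
  refine Real.sqrt_le_sqrt ?_
  rw [mul_sum]
  refine sum_le_sum fun σ _ => ?_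
  rw [dgL_apply, norm_mul, mul_pow]
  have := hd σ
  gcongr

lemma norm_dgL_eq {d : S → ℂ} (hd : ∀ σ, ‖d σ‖ = 1) (v : HS S) : ‖dgL d v‖ = ‖v‖ := by
  rw [EuclideanSpace.norm_eq, EuclideanSpace.norm_eq]
  congr 1
  refine sum_congr rfl fun σ _ => ?_
  rw [dgL_apply, norm_mul, hd, one_mul]

/-- The controlled phase `exp(-i t c E)`. -/
noncomputable def phL (t : ℝ) (c : S → ℝ) (E : S → ℂ) : HS S →ₗ[ℂ] HS S :=
  dgL fun x => Complex.exp (-(Complex.I * ((t * c x : ℝ) : ℂ) * E x))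

/-- The state after `k` steps. -/
noncomputable def crc (D : ℕ → HS S →ₗ[ℂ] HS S) (t : ℕ → ℝ) (c : ℕ → S → ℝ) (E : S → ℂ)
    (v : HS S) : ℕ → HS S
  | 0 => v
  | k + 1 => D k (phL (t k) (c k) E (crc D t c E v k))

/-- Atomic norm bound for families of vectors. -/
def WS (K : ℝ) (Φ : S → HS S) : Prop :=
  ∃ (ι : Type) (_ : Fintype ι) (χ : ι → S → ℂ) (c : ι → HS S),
    (∀ a σ, ‖χ a σ‖ ≤ 1) ∧ (∀ σ, Φ σ = ∑ a, χ a σ • c a) ∧ ∑ a, ‖c a‖ ≤ K

lemma WS.const (v : HS S) : WS ‖v‖ (fun _ => v) :=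
  ⟨Unit, inferInstance, fun _ _ => 1, fun _ => v, by simp, by simp, by simp⟩

lemma WS.mono {K K' : ℝ} {Φ : S → HS S} (h : WS K Φ) (hK : K ≤ K') : WS K' Φ := by
  obtain ⟨ι, hι, χ, c, h1, h2, h3⟩ := h
  exact ⟨ι, hι, χ, c, h1, h2, h3.trans hK⟩

lemma WS.congr {K : ℝ} {Φ Ψ : S → HS S} (h : WS K Φ) (hK : ∀ σ, Ψ σ = Φ σ) : WS K Ψ := by
  obtain ⟨ι, hι, χ, c, h1, h2, h3⟩ := h
  exact ⟨ι, hι, χ, c, h1, fun σ => (hK σ).trans (h2 σ), h3⟩

lemma WS.nonneg {K : ℝ} {Φ : S → HS S} (h : WS K Φ) : 0 ≤ K := by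
  obtain ⟨ι, hι, χ, c, h1, h2, h3⟩ := h
  exact (sum_nonneg fun _ _ => norm_nonneg _).trans h3

lemma WS.add {K K' : ℝ} {Φ Ψ : S → HS S} (h : WS K Φ) (h' : WS K' Ψ) :
    WS (K + K') (fun σ => Φ σ + Ψ σ) := by
  obtain ⟨ι, hι, χ, c, h1, h2, h3⟩ := h
  obtain ⟨ι', hι', χ', c', h1', h2', h3'⟩ := h'
  refine ⟨ι ⊕ ι', inferInstance, Sum.elim χ χ', Sum.elim c c', ?_, ?_, ?_⟩
  · rintro (a | a) σ
    · exact h1 a σ
    · exact h1' a σ
  · intro σ
    simp only [Fintype.sum_sum_type, Sum.elim_inl, Sum.elim_inr]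
    rw [h2, h2']
  · simp only [Fintype.sum_sum_type, Sum.elim_inl, Sum.elim_inr]
    exact add_le_add h3 h3'

lemma WS.chi {K : ℝ} {Φ : S → HS S} (h : WS K Φ) (χ₀ : S → ℂ) (hχ : ∀ σ, ‖χ₀ σ‖ ≤ 1) :
    WS K (fun σ => χ₀ σ • Φ σ) := by
  obtain ⟨ι, hι, χ, c, h1, h2, h3⟩ := h
  refine ⟨ι, hι, fun a σ => χ₀ σ * χ a σ, c, ?_, ?_, h3⟩
  · intro a σ
    simp only [norm_mul]
    exact mul_le_one₀ (hχ σ) (norm_nonneg _) (h1 a σ)
  · intro σ
    simp only [h2, smul_sum, smul_smul]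

lemma WS.map {K : ℝ} {Φ : S → HS S} (h : WS K Φ) (T : HS S →ₗ[ℂ] HS S) {M : ℝ} (hM : 0 ≤ M)
    (hT : ∀ v, ‖T v‖ ≤ M * ‖v‖) : WS (M * K) (fun σ => T (Φ σ)) := by
  obtain ⟨ι, hι, χ, c, h1, h2, h3⟩ := h
  refine ⟨ι, hι, χ, fun a => T (c a), h1, ?_, ?_⟩
  · intro σ
    simp only [h2, map_sum, map_smul]
  · refine (sum_le_sum fun a _ => hT (c a)).trans ?_
    rw [← mul_sum]
    exact mul_le_mul_of_nonneg_left h3 hM

lemma WS.map1 {K : ℝ} {Φ : S → HS S} (h : WS K Φ) (T : HS S →ₗ[ℂ] HS S)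
    (hT : ∀ v, ‖T v‖ ≤ ‖v‖) : WS K (fun σ => T (Φ σ)) := by
  have := h.map T zero_le_one (fun v => by simpa using hT v)
  simpa using this

lemma WS.eval {K : ℝ} {Φ : S → HS S} (h : WS K Φ) :
    ‖(WithLp.toLp 2 fun σ => Φ σ σ : HS S)‖ ≤ K := by
  obtain ⟨ι, hι, χ, c, h1, h2, h3⟩ := h
  refine le_trans ?_ h3
  have : (WithLp.toLp 2 fun σ => Φ σ σ : HS S) = ∑ a, dgL (χ a) (c a) := by
    ext σ
    rw [PiLp.toLp_apply, h2]
    simp
  rw [this]
  refine (norm_sum_le _ _).trans (sum_le_sum fun a _ => ?_)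
  have := norm_dgL_le (zero_le_one) (h1 a) (c a)
  simpa using this

lemma norm_cosh_le (w : ℂ) : ‖Complex.cosh w‖ ≤ Real.cosh ‖w‖ := by
  rw [← (Complex.hasSum_cosh w).tsum_eq]
  refine tsum_of_norm_bounded (Real.hasSum_cosh ‖w‖) fun k => ?_
  simp

lemma norm_sinh_le (w : ℂ) : ‖Complex.sinh w‖ ≤ Real.sinh ‖w‖ := by
  rw [← (Complex.hasSum_sinh w).tsum_eq]
  refine tsum_of_norm_bounded (Real.hasSum_sinh ‖w‖) fun k => ?_
  simp

lemma norm_mul_ctrl (w : ℂ) {c : ℝ} (hc : |c| ≤ 1) : ‖w * (c : ℂ)‖ ≤ ‖w‖ := by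
  rw [norm_mul, Complex.norm_real, Real.norm_eq_abs]
  exact mul_le_of_le_one_right (norm_nonneg _) hc

lemma norm_cosh_ctrl (w : ℂ) {c : ℝ} (hc : |c| ≤ 1) :
    ‖Complex.cosh (w * (c : ℂ))‖ ≤ Real.cosh ‖w‖ := by
  refine (norm_cosh_le _).trans ?_
  rw [Real.cosh_le_cosh, abs_of_nonneg (norm_nonneg _), abs_of_nonneg (norm_nonneg _)]
  exact norm_mul_ctrl w hc

lemma norm_sinh_ctrl (w : ℂ) {c : ℝ} (hc : |c| ≤ 1) :
    ‖Complex.sinh (w * (c : ℂ))‖ ≤ Real.sinh ‖w‖ := by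
  refine (norm_sinh_le _).trans ?_
  rw [Real.sinh_le_sinh]
  exact norm_mul_ctrl w hc

/-- one elementary controlled gate `exp(w c(z) r(σ) s(z))` -/
lemma WS.gate {K : ℝ} {Φ : S → HS S} (h : WS K Φ) (w : ℂ) (c r s : S → ℝ) (hc : ∀ z, |c z| ≤ 1)
    (hr : ∀ σ, r σ * r σ = 1) (hs : ∀ σ, s σ * s σ = 1) :
    WS (Real.exp ‖w‖ * K)
      (fun σ => dgL (fun z => Complex.exp (w * (c z * (r σ * s z) : ℝ))) (Φ σ)) := by
  have hr1 : ∀ σ, ‖((r σ : ℝ) : ℂ)‖ ≤ 1 := fun σ => by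
    rw [Complex.norm_real, Real.norm_eq_abs]
    rcases mul_self_eq_one_iff.1 (hr σ) with h | h <;> simp [h]
  have hs1 : ∀ σ, ‖((s σ : ℝ) : ℂ)‖ ≤ 1 := fun σ => by
    rw [Complex.norm_real, Real.norm_eq_abs]
    rcases mul_self_eq_one_iff.1 (hs σ) with h | h <;> simp [h]
  have hC : ∀ v : HS S, ‖dgL (fun z => Complex.cosh (w * (c z : ℂ))) v‖ ≤ Real.cosh ‖w‖ * ‖v‖ :=
    norm_dgL_le (Real.cosh_pos _).le fun z => norm_cosh_ctrl w (hc z)
  have hSn : ∀ v : HS S, ‖dgL (fun z => ((s z : ℝ) : ℂ) * Complex.sinh (w * (c z : ℂ))) v‖ ≤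
      Real.sinh ‖w‖ * ‖v‖ :=
    norm_dgL_le (Real.sinh_nonneg_iff.2 (norm_nonneg _)) fun z => by
      rw [norm_mul]
      exact (mul_le_of_le_one_left (norm_nonneg _) (hs1 z)).trans (norm_sinh_ctrl w (hc z))
  have h1 := (h.map _ (Real.cosh_pos _).le hC).add
    ((h.map _ (Real.sinh_nonneg_iff.2 (norm_nonneg _)) hSn).chi (fun σ => ((r σ : ℝ) : ℂ)) hr1)
  have h2 : Real.cosh ‖w‖ * K + Real.sinh ‖w‖ * K = Real.exp ‖w‖ * K := by
    rw [← add_mul, Real.cosh_add_sinh]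
  refine (h1.mono h2.le).congr fun σ => ?_
  ext z
  have h3 := exp_mul_sign (w * (c z : ℂ)) (r σ * s z) (by
    rw [mul_mul_mul_comm, hr, hs, one_mul])
  have h4 : w * ((c z * (r σ * s z) : ℝ) : ℂ) = w * (c z : ℂ) * ((r σ * s z : ℝ) : ℂ) := by
    push_cast
    ring
  simp only [dgL_apply, PiLp.add_apply, PiLp.smul_apply, smul_eq_mul, h4, h3]
  push_cast
  ring

/-- many elementary gates -/
lemma WS.gates {K : ℝ} {Φ : S → HS S} (h : WS K Φ) (w : ℂ) (c : S → ℝ) (hc : ∀ z, |c z| ≤ 1)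
    {ι : Type*} (Q : Finset ι) (r s : ι → S → ℝ)
    (hr : ∀ j σ, r j σ * r j σ = 1) (hs : ∀ j σ, s j σ * s j σ = 1) :
    WS (Real.exp (Q.card * ‖w‖) * K)
      (fun σ => dgL (fun z => Complex.exp (w * (c z * ∑ j ∈ Q, r j σ * s j z : ℝ))) (Φ σ)) := by
  classical
  induction Q using Finset.induction_on with
  | empty =>
    refine (h.mono ?_).congr fun σ => ?_
    · simp
    · ext z; simp
  | insert j Q hj ih =>
    refine ((ih.gate w c (r j) (s j) hc (hr j) (hs j)).mono (le_of_eq ?_)).congr fun σ => ?_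
    · rw [card_insert_of_notMem hj, ← mul_assoc, ← Real.exp_add]
      push_cast
      ring_nf
    · ext z
      simp only [dgL_apply]
      rw [← mul_assoc, ← Complex.exp_add, sum_insert hj]
      push_cast
      ring_nf

theorem WS_crc (D : ℕ → HS S →ₗ[ℂ] HS S) (hD : ∀ k v, ‖D k v‖ ≤ ‖v‖) (t : ℕ → ℝ)
    (c : ℕ → S → ℝ) (hc : ∀ k x, |c k x| ≤ 1) (reg out : S → Conf n)
    (E0 : S → ℝ) (i : Fin n) (ζ : ℂ) (v : HS S) (k : ℕ) :
    WS (Real.exp ((∑ l ∈ range k, |t l|) * ‖ζ‖) * ‖v‖)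
      (fun σ => crc D t c (fun z => (E0 z : ℂ) - ζ * (Rov i (out σ) (reg z) : ℝ)) v k) := by
  have hn : 0 < n := i.pos
  have hn' : (0 : ℝ) < n := by exact_mod_cast hn
  induction k with
  | zero => simpa [crc] using WS.const v
  | succ k ih =>
    have h1 := ih.gates (Complex.I * t k * ζ / n) (c k) (hc k) (univ.erase i)
      (fun j σ => spin (out σ i) * spin (out σ j)) (fun j z => spin (reg z i) * spin (reg z j))
      (fun j σ => spin2_sq i j (out σ)) (fun j z => spin2_sq i j (reg z))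
    have hph : ∀ v : HS S, ‖dgL (fun z => Complex.exp (-(Complex.I * (t k * c k z * E0 z : ℝ)))) v‖
        ≤ ‖v‖ := fun v =>
      (norm_dgL_eq (fun z => norm_exp_I_real _) v).le
    have h2 := (h1.map1 _ hph).map1 (D k) (hD k)
    refine (h2.mono ?_).congr fun σ => ?_
    · rw [← mul_assoc, ← Real.exp_add, sum_range_succ]
      refine mul_le_mul_of_nonneg_right (Real.exp_le_exp.2 ?_) (norm_nonneg _)
      have h3 : ((univ.erase i).card : ℝ) * ‖Complex.I * t k * ζ / n‖ ≤ |t k| * ‖ζ‖ := by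
        have h4 : ((univ.erase i).card : ℝ) ≤ n := by
          have : (univ.erase i).card ≤ n := by
            refine (card_le_univ _).trans ?_
            simp
          exact_mod_cast this
        have h5 : ‖Complex.I * t k * ζ / n‖ = |t k| * ‖ζ‖ / n := by
          simp
        rw [h5]
        calc ((univ.erase i).card : ℝ) * (|t k| * ‖ζ‖ / n) ≤ n * (|t k| * ‖ζ‖ / n) := by
              gcongr
          _ = |t k| * ‖ζ‖ := by field_simp
      linarith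
    · simp only [crc]
      congr 1
      ext z
      simp only [phL, dgL_apply]
      rw [← mul_assoc, ← Complex.exp_add]
      congr 2
      simp only [Rov]
      generalize (∑ j ∈ univ.erase i,
        spin (out σ i) * spin (out σ j) * (spin (reg z i) * spin (reg z j)) : ℝ) = Q
      push_cast
      have : (n : ℂ) ≠ 0 := by exact_mod_cast hn.ne'
      field_simp
      ring

/-- The measured-direction shifted amplitude, as an entire function. -/
noncomputable def Fs (D : ℕ → HS S →ₗ[ℂ] HS S) (t : ℕ → ℝ) (c : ℕ → S → ℝ) (reg out : S → Conf n)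
    (E0 : S → ℝ) (i : Fin n) (v : HS S) (p : ℕ) (ζ : ℂ) : HS S :=
  WithLp.toLp 2 fun σ => crc D t c (fun z => (E0 z : ℂ) - ζ * (Rov i (out σ) (reg z) : ℝ)) v p σ

theorem norm_Fs_le (D : ℕ → HS S →ₗ[ℂ] HS S) (hD : ∀ k v, ‖D k v‖ ≤ ‖v‖) (t : ℕ → ℝ)
    (c : ℕ → S → ℝ) (hc : ∀ k x, |c k x| ≤ 1) (reg out : S → Conf n)
    (E0 : S → ℝ) (i : Fin n) (v : HS S) (p : ℕ) (ζ : ℂ) :
    ‖Fs D t c reg out E0 i v p ζ‖ ≤ Real.exp ((∑ l ∈ range p, |t l|) * ‖ζ‖) * ‖v‖ :=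
  (WS_crc D hD t c hc reg out E0 i ζ v p).eval

lemma differentiable_crc (D : ℕ → HS S →ₗ[ℂ] HS S) (t : ℕ → ℝ) (c : ℕ → S → ℝ)
    (E0 R : S → ℝ) (v : HS S) (k : ℕ) :
    Differentiable ℂ (fun ζ : ℂ => crc D t c (fun z => (E0 z : ℂ) - ζ * (R z : ℝ)) v k) := by
  induction k with
  | zero => simp only [crc]; exact differentiable_const v
  | succ k ih =>
    simp only [crc]
    have h1 : Differentiable ℂ (fun ζ : ℂ => phL (t k) (c k) (fun z => (E0 z : ℂ) - ζ * (R z : ℝ))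
        (crc D t c (fun z => (E0 z : ℂ) - ζ * (R z : ℝ)) v k)) := by
      rw [differentiable_euclidean]
      intro z
      simp only [phL, dgL_apply]
      have h2 := (differentiable_euclidean.1 ih) z
      fun_prop
    exact (LinearMap.toContinuousLinearMap (D k)).differentiable.comp h1

theorem differentiable_Fs (D : ℕ → HS S →ₗ[ℂ] HS S) (t : ℕ → ℝ) (c : ℕ → S → ℝ)
    (reg out : S → Conf n) (E0 : S → ℝ) (i : Fin n) (v : HS S) (p : ℕ) :
    Differentiable ℂ (Fs D t c reg out E0 i v p) := by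
  rw [differentiable_euclidean]
  intro σ
  exact (differentiable_euclidean.1
    (differentiable_crc D t c E0 (fun z => Rov i (out σ) (reg z)) v p)) σ

/-- The energies of the register. -/
noncomputable def cR (reg : S → Conf n) (J : Pair n → ℝ) : S → ℂ :=
  fun x => ((skEnergy J (reg x) : ℝ) : ℂ)

lemma norm_crc_real (D : ℕ → HS S →ₗ[ℂ] HS S) (hD : ∀ k v, ‖D k v‖ = ‖v‖) (t : ℕ → ℝ)
    (c : ℕ → S → ℝ) (reg : S → Conf n) (J : Pair n → ℝ) (v : HS S) (k : ℕ) :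
    ‖crc D t c (cR reg J) v k‖ = ‖v‖ := by
  induction k with
  | zero => rfl
  | succ k ih =>
    rw [crc, hD, phL, norm_dgL_eq, ih]
    intro s
    unfold cR
    rw [show -(Complex.I * ((t k * c k s : ℝ) : ℂ) * ((skEnergy J (reg s) : ℝ) : ℂ))
      = -(Complex.I * ((t k * c k s * skEnergy J (reg s) : ℝ) : ℂ)) by push_cast; ring]
    exact norm_exp_I_real _

lemma continuous_crc (D : ℕ → HS S →ₗ[ℂ] HS S) (t : ℕ → ℝ) (c : ℕ → S → ℝ) (reg : S → Conf n)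
    (v : HS S) (k : ℕ) : Continuous fun J : Pair n → ℝ => crc D t c (cR reg J) v k := by
  induction k with
  | zero => exact continuous_const
  | succ k ih =>
    simp only [crc]
    have h1 : Continuous fun J : Pair n → ℝ =>
        phL (t k) (c k) (cR reg J) (crc D t c (cR reg J) v k) := by
      have h2 : ∀ s, Continuous fun J : Pair n → ℝ =>
          Complex.exp (-(Complex.I * ((t k * c k s : ℝ) : ℂ) * cR reg J s)) *
            (crc D t c (cR reg J) v k) s := by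
        intro s
        have h3 := continuous_skEnergy (n := n) (reg s)
        have h4 : Continuous fun J : Pair n → ℝ => (crc D t c (cR reg J) v k) s :=
          (PiLp.continuous_apply 2 _ s).comp ih
        unfold cR at *
        fun_prop
      have h5 : Continuous fun J : Pair n → ℝ =>
          (fun s => Complex.exp (-(Complex.I * ((t k * c k s : ℝ) : ℂ) * cR reg J s)) *
            (crc D t c (cR reg J) v k) s) :=
        continuous_pi h2
      exact (PiLp.continuous_toLp 2 _).comp h5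
    exact (LinearMap.continuous_of_finiteDimensional (D k)).comp h1

end Vale.Agent.P367.H648
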