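import Vale.Agent.P367.H648.Circ

/-!
# P367 : the gap for all circuits with bounded evolution time (helper648)
-/

open MeasureTheory ProbabilityTheory Finset Matrix Filter Topology

namespace Vale.Agent.P367.H648

open Vale.Agent.P367.Gap

variable {S : Type} [Fintype S] {n : ℕ}

/-- The averaged form of the flip lemma. -/
lemma flip_S (J : Pair n → ℝ) (out : S → Conf n) (w : S → ℝ) (hw : ∀ s, 0 ≤ w s)
    (hw1 : ∑ s, w s = 1) (q : ℝ) (hq0 : 0 ≤ q) (hq1 : q ≤ 1) :
    ∑ x, w x * skEnergy J (out x) +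
        2 * q * ∑ i, ∑ x, w x * max (-(tt (fun y => uvec i (out y)) x J)) 0
      ≤ (⨆ s : Conf n, skEnergy J s) + 4 * q ^ 2 * ⨆ s : Conf n, skEnergy (-J) s := by
  have h1 : ∀ x, w x * (skEnergy J (out x) +
        2 * q * ∑ i, max (-(tt (fun y => uvec i (out y)) x J)) 0)
      ≤ w x * ((⨆ s : Conf n, skEnergy J s) + 4 * q ^ 2 * ⨆ s : Conf n, skEnergy (-J) s) := by
    intro x
    apply mul_le_mul_of_nonneg_left _ (hw x)
    have h := flip_gain2 (ext J) (out x) q hq0 hq1
    rw [ext_neg] at h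
    simp only [skEq_ext] at h
    have e : ∀ i, tt (fun y => uvec i (out y)) x J = afld (ext J) (out x) i := fun i =>
      tt_eq J i (out x)
    simp only [e]
    exact h
  have h2 := Finset.sum_le_sum (s := univ) fun s _ => h1 s
  rw [← Finset.sum_mul, hw1, one_mul] at h2
  refine le_trans (le_of_eq ?_) h2
  simp only [mul_add, Finset.sum_add_distrib]
  congr 1
  rw [Finset.sum_comm, Finset.mul_sum]
  apply Finset.sum_congr rfl
  intro s _
  rw [Finset.mul_sum, Finset.mul_sum, Finset.mul_sum]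
  apply Finset.sum_congr rfl
  intro i _
  ring

/-- **The gap** for circuits with arbitrary gates. -/
theorem gap_S (reg out : S → Conf n) (D : ℕ → HS S →ₗ[ℂ] HS S) (hDn : ∀ k v, ‖D k v‖ = ‖v‖)
    (t : ℕ → ℝ) (c : ℕ → S → ℝ) (hc : ∀ k x, |c k x| ≤ 1) (v : HS S) (hv : ‖v‖ = 1) (p : ℕ)
    (T : ℝ) (hT : 0 ≤ T) (hsum : ∑ l ∈ range p, |t l| ≤ T) (hn : 2 ≤ n) :
    (n : ℝ)⁻¹ * ∫ J, ∑ x, ‖crc D t c (cR reg J) v p x‖ ^ 2 * skEnergy J (out x)
        ∂(couplingLaw n)
      ≤ groundValue n - Real.exp (-(10 ^ 8 * (1 + T) ^ 2)) := by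
  have hn0 : 0 < n := by omega
  have hnr : (0 : ℝ) < n := by exact_mod_cast hn0
  have hn2 : (2 : ℝ) ≤ n := by exact_mod_cast hn
  set ψ : (Pair n → ℝ) → S → ℂ := fun J x => crc D t c (cR reg J) v p x with hψ
  have hmeas : ∀ s, Measurable fun J => ψ J s := by
    intro s
    have h1 := continuous_crc D t c reg v p
    have h2 : Continuous fun J : Pair n → ℝ => (crc D t c (cR reg J) v p) s :=
      (PiLp.continuous_apply 2 _ s).comp h1
    exact h2.measurable
  have hnorm : ∀ J, ∑ s, ‖ψ J s‖ ^ 2 = 1 := by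
    intro J
    have h1 := norm_crc_real D hDn t c reg J v p
    rw [hv, EuclideanSpace.norm_eq] at h1
    have h3 := congrArg (fun x : ℝ => x ^ 2) h1
    simp only at h3
    rw [Real.sq_sqrt (Finset.sum_nonneg fun s _ => by positivity)] at h3
    rw [hψ]
    simp only
    rw [h3]; norm_num
  have hκ : (1 : ℝ) / 2 ≤ 1 - (n : ℝ)⁻¹ := by
    have : (n : ℝ)⁻¹ ≤ 1 / 2 := by
      rw [inv_le_comm₀ hnr (by norm_num)]
      linarith
    linarith
  have hκ1 : 1 - (n : ℝ)⁻¹ ≤ 1 := by
    have : 0 < (n : ℝ)⁻¹ := by positivity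
    linarith
  set U : Fin n → S → Pair n → ℝ := fun i x => uvec i (out x) with hU
  have hmis : ∀ i : Fin n, d0 T ≤ Dmis ψ (U i) := by
    intro i
    apply Dmis_lower hκ hκ1 (fun x => uvec_sq hn0 i (out x)) hmeas hnorm hT
    intro J
    refine ⟨fun z => Fs D t c reg out (fun x => skEnergy J (reg x)) i v p z, ?_, ?_, ?_⟩
    · intro s
      exact (differentiable_euclidean.1
        (differentiable_Fs D t c reg out (fun x => skEnergy J (reg x)) i v p)) s
    · intro r x
      have h1 : (fun z => ((skEnergy J (reg z) : ℝ) : ℂ) - (r : ℂ) * ((Rov i (out x) (reg z) : ℝ) : ℂ))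
          = cR reg (J - r • uvec i (out x)) := by
        funext z
        unfold cR
        rw [skEnergy_shift]
        push_cast
        ring
      show crc D t c (fun z => ((skEnergy J (reg z) : ℝ) : ℂ) -
        (r : ℂ) * ((Rov i (out x) (reg z) : ℝ) : ℂ)) v p x = _
      rw [h1]
    · intro z y hy
      refine le_trans (cs_pairing y _ hy) ?_
      have h1 := norm_Fs_le D (fun k v => (hDn k v).le) t c hc reg out
        (fun x => skEnergy J (reg x)) i v p z
      rw [hv, mul_one, EuclideanSpace.norm_eq] at h1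
      refine le_trans h1 ?_
      apply Real.exp_le_exp.mpr
      exact mul_le_mul_of_nonneg_right hsum (norm_nonneg _)
  -- pointwise inequality
  set q : ℝ := d0 T / 8 with hq
  have hd0 := d0_pos hT
  have hd1 := d0_le_one hT
  have hq0 : 0 ≤ q := by positivity
  have hq1 : q ≤ 1 := by rw [hq]; linarith
  set M : (Pair n → ℝ) → ℝ := fun J => ∑ x, ‖ψ J x‖ ^ 2 * skEnergy J (out x) with hM
  have hpt : ∀ J : Pair n → ℝ,
      M J + 2 * q * ∑ i, ∑ s, ‖ψ J s‖ ^ 2 * max (-(tt (U i) s J)) 0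
        ≤ (⨆ s : Conf n, skEnergy J s) + 4 * q ^ 2 * ⨆ s : Conf n, skEnergy (-J) s := by
    intro J
    exact flip_S J out (fun s => ‖ψ J s‖ ^ 2) (fun s => by positivity) (hnorm J) q hq0 hq1
  have iE : Integrable M (gLaw (Pair n)) := by
    apply integrable_finsetSum
    intro s _
    refine (integrable_energy (out s)).abs.mono' ?_ (Filter.Eventually.of_forall fun J => ?_)
    · apply Measurable.aestronglyMeasurable
      exact ((hmeas s).norm.pow_const 2).mul (continuous_skEnergy (out s)).measurable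
    · rw [norm_mul, Real.norm_eq_abs, Real.norm_eq_abs, abs_of_nonneg (by positivity)]
      calc ‖ψ J s‖ ^ 2 * |skEnergy J (out s)| ≤ 1 * |skEnergy J (out s)| :=
            mul_le_mul_of_nonneg_right (norm_sq_le_one (hnorm J) s) (abs_nonneg _)
        _ = _ := one_mul _
  have iM : ∀ i : Fin n, Integrable
      (fun J : Pair n → ℝ => ∑ s, ‖ψ J s‖ ^ 2 * max (-(tt (U i) s J)) 0) (gLaw (Pair n)) :=
    fun i => integrable_finsetSum _ fun s _ => integrable_mis ψ (U i) hmeas hnorm s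
  have iS1 : Integrable (fun J : Pair n → ℝ => ⨆ s : Conf n, skEnergy J s) (gLaw (Pair n)) :=
    integrable_iSup (fun (s : Conf n) (J : Pair n → ℝ) => skEnergy J s)
      (fun s => integrable_energy s) (fun s => (continuous_skEnergy s).measurable)
  have iS2 : Integrable (fun J : Pair n → ℝ => ⨆ s : Conf n, skEnergy (-J) s)
      (gLaw (Pair n)) :=
    integrable_iSup (fun (s : Conf n) (J : Pair n → ℝ) => skEnergy (-J) s)
      (fun s => integrable_energy_neg s)
      (fun s => ((continuous_skEnergy s).comp continuous_neg).measurable)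
  have hint : ∫ J, (M J
        + 2 * q * ∑ i, ∑ s, ‖ψ J s‖ ^ 2 * max (-(tt (U i) s J)) 0) ∂(gLaw (Pair n))
      ≤ ∫ J : Pair n → ℝ, ((⨆ s : Conf n, skEnergy J s)
        + 4 * q ^ 2 * ⨆ s : Conf n, skEnergy (-J) s) ∂(gLaw (Pair n)) := by
    apply integral_mono
    · exact iE.add ((integrable_finsetSum _ fun i _ => iM i).const_mul _)
    · exact iS1.add (iS2.const_mul _)
    · exact hpt
  rw [integral_add iE ((integrable_finsetSum _ fun i _ => iM i).const_mul _),
    integral_add iS1 (iS2.const_mul _), integral_const_mul, integral_const_mul,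
    integral_finsetSum _ fun i _ => iM i] at hint
  have hsumD : (n : ℝ) * d0 T ≤ ∑ i : Fin n,
      ∫ J : Pair n → ℝ, ∑ s, ‖ψ J s‖ ^ 2 * max (-(tt (U i) s J)) 0 ∂(gLaw (Pair n)) := by
    calc (n : ℝ) * d0 T = ∑ _i : Fin n, d0 T := by simp
      _ ≤ _ := Finset.sum_le_sum fun i _ => hmis i
  have hneg := integral_sup_neg_le hn0
  set Q : ℝ := (n : ℝ)⁻¹ * ∫ J, M J ∂(couplingLaw n) with hQd
  have hQ : (n : ℝ) * Q = ∫ J, M J ∂(gLaw (Pair n)) := by
    rw [hQd]
    unfold couplingLaw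
    rw [← mul_assoc, mul_inv_cancel₀ hnr.ne', one_mul]
  have hP : (n : ℝ) * groundValue n
      = ∫ J : Pair n → ℝ, (⨆ s : Conf n, skEnergy J s) ∂(gLaw (Pair n)) := by
    unfold groundValue couplingLaw
    rw [← mul_assoc, mul_inv_cancel₀ hnr.ne', one_mul]
  rw [← hQ, ← hP] at hint
  have h1 : 2 * q * ((n : ℝ) * d0 T) ≤ 2 * q * ∑ i : Fin n,
      ∫ J : Pair n → ℝ, ∑ s, ‖ψ J s‖ ^ 2 * max (-(tt (U i) s J)) 0 ∂(gLaw (Pair n)) :=
    mul_le_mul_of_nonneg_left hsumD (by positivity)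
  have h2 : 4 * q ^ 2 * ∫ J : Pair n → ℝ, (⨆ s : Conf n, skEnergy (-J) s) ∂(gLaw (Pair n))
      ≤ 4 * q ^ 2 * (2 * n) := mul_le_mul_of_nonneg_left hneg (by positivity)
  have h3 : (n : ℝ) * Q + (n : ℝ) * (d0 T ^ 2 / 8) ≤ (n : ℝ) * groundValue n := by
    have h4 : 2 * q * ((n : ℝ) * d0 T) - 4 * q ^ 2 * (2 * n) = (n : ℝ) * (d0 T ^ 2 / 8) := by
      rw [hq]; ring
    linarith
  have h5 : Q + d0 T ^ 2 / 8 ≤ groundValue n := by
    have : (n : ℝ) * (Q + d0 T ^ 2 / 8) ≤ (n : ℝ) * groundValue n := by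
      rw [mul_add]; exact h3
    exact le_of_mul_le_mul_left this hnr
  have h6 := d0_sq_lower hT
  exact le_sub_iff_add_le.mpr (le_trans (add_le_add le_rfl h6) h5)

end Vale.Agent.P367.H648
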